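import Vale.Agent.P095.NU.Final
import Vale.Agent.P095.NU.Assembly
import Vale.Agent.P095.NU.Tracial
import Vale.Agent.P095.NU.Glimm
import Vale.Agent.P095.NU.Excision
import Vale.Agent.P095.NU.Prepared
import Vale.Agent.P095.NU.Separation
import Vale.Agent.P095.NU.Bumps
import Vale.Agent.P095.NU.Combine
import Vale.Agent.P095.NU.Compare
import Vale.Agent.P095.NU.Amplify
import Vale.Agent.P095.NU.Absorb
import Vale.Agent.P095.NU.Pair
import Vale.Agent.P095.Compare.Final

/-!
# P095: Szabo's Conjecture A

For every separable, simple, nuclear C*-algebra `A`, unital or not, into whose central sequence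
algebra `(A_∞ ∩ A') / Ann A` the dimension drop algebra `Z_{2,3}` maps unitally, and every action of
a countable amenable group, such a homomorphism maps into the fixed points of the action.
-/

noncomputable section

namespace Vale.Agent.Results.P095.AmenableEquivariantStability

universe u v

open Vale.Agent.P095 Vale.Agent.P095.Relative Vale.Agent.P101 Vale.Agent.P095.Gamma Vale.Agent.P095.NU

theorem result :
    ∀ (A : Type u) [NonUnitalCStarAlgebra A] [TopologicalSpace.SeparableSpace A],
      IsSimpleC A → IsNuclearC A → (∃ φ, IsDropHomMod A φ) →
        ∀ (G : Type v) [Group G] [Countable G] [DecidableEq G], IsFolnerGroup G →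
          ∀ α : G →* (A ≃⋆ₐ[ℂ] A), ∃ φ, IsInvariantDropHomMod α φ := by
  intro A _ _ hs hn hd G _ _ _ hF α
  exact invariant_mod_of
    (NU.amenableStatement_of NU.tracialStatement NU.pairStatement
      (NU.siStatement_of NU.glimmStatement NU.excisionStatement
        (NU.preparedStatement_of NU.normProdStatement
          (NU.separationStatement_of NU.normClassStatement NU.normProdStatement)
          NU.orthBumpStatement)
        (NU.compare_of (NU.amplify_of Compare.traceSum Compare.free Compare.model) NU.absorb)))
    hs hn hd hF α

end Vale.Agent.Results.P095.AmenableEquivariantStability
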