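import Vale.Agent.P095.Gamma.Main
import Vale.Agent.P095.Gamma.Product
import Vale.Agent.P095.Gamma.Pool
import Vale.Agent.P095.Gamma.Eta
import Vale.Agent.P095.Gamma.Variance
import Vale.Agent.P095.Gamma.Phase

/-!
# P095: every action of an amenable group on a unital Z-stable algebra has equivariant Gamma
-/

noncomputable section

namespace Vale.Agent.Results.P095.EquivariantGamma

universe u v

open Vale.Agent.P101 Vale.Agent.P095.Gamma

theorem result :
    ∀ (A : Type u) [CStarAlgebra A] [TopologicalSpace.SeparableSpace A],
      (∃ φ, IsCentralDropHom A φ) →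
        ∀ (G : Type v) [Group G] [Countable G] [DecidableEq G], IsFolnerGroup G →
          ∀ α : G →* (A ≃⋆ₐ[ℂ] A), HasEquivariantGamma A α :=
  fun A _ _ h G _ _ _ hG α =>
    main_of productStatement extremalStatement poolStatement etaStatement_of varianceStatement_of
      partitionStatement_of A h G hG α

end Vale.Agent.Results.P095.EquivariantGamma
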