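import Vale.Agent.P095.Relative.NonUnital

/-!
# P095: equivariant Jiang–Su stability and locally finite groups

For any separable C*-algebra `A` (unital or not), equivariant Jiang–Su stability, stated through
unital homomorphisms `Z_{2,3} → F_∞(A)`, holds for all actions with locally finite image as soon
as `A` is Jiang–Su stable, and passes from a normal subgroup with locally finite quotient to the
whole group.
-/

noncomputable section

namespace Vale.Agent.Results.P095.LocallyFiniteExtension

universe u v

open Vale.Agent.P095.Relative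

theorem result :
    ∀ (A : Type u) [NonUnitalCStarAlgebra A] [TopologicalSpace.SeparableSpace A]
      (G : Type v) [Group G] [Countable G] (α : G →* (A ≃⋆ₐ[ℂ] A)),
      ((∀ s : Finset G,
          (((Subgroup.closure (s : Set G)).map α : Subgroup (A ≃⋆ₐ[ℂ] A)) :
            Set (A ≃⋆ₐ[ℂ] A)).Finite) →
        (∃ φ, IsDropHomMod A φ) → ∃ φ, IsInvariantDropHomMod α φ) ∧
      ∀ (N : Subgroup G) [N.Normal],
        (∀ s : Finset (G ⧸ N),
          ((Subgroup.closure (s : Set (G ⧸ N)) : Subgroup (G ⧸ N)) : Set (G ⧸ N)).Finite) →
        (∃ φ, IsInvariantDropHomMod (α.comp N.subtype) φ) → ∃ φ, IsInvariantDropHomMod α φ :=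
  fun _ _ _ _ _ _ _ =>
    ⟨exists_invariant_mod_of_locallyFinite, fun N _ hfin h => exists_invariant_mod N hfin h⟩

end Vale.Agent.Results.P095.LocallyFiniteExtension
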